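import Mathlib

namespace Vale.Agent.P340

/-- Expressions of a pure type system with sorts in `S`, in de Bruijn index form: `var n` is the
variable bound `n` binders out, `lam A M` is `λ x : A. M` and `pi A B` is `Π x : A. B`. -/
inductive Tm (S : Type*) where
  | var (n : ℕ)
  | srt (s : S)
  | app (M N : Tm S)
  | lam (A M : Tm S)
  | pi (A B : Tm S)

variable {S : Type*}

/-- Lifting of a renaming under one binder. -/
def upRen (f : ℕ → ℕ) : ℕ → ℕ
  | 0 => 0
  | n + 1 => f n + 1

namespace Tm

/-- Renaming of free variables. -/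
def rename (f : ℕ → ℕ) : Tm S → Tm S
  | var n => var (f n)
  | srt s => srt s
  | app M N => app (rename f M) (rename f N)
  | lam A M => lam (rename f A) (rename (upRen f) M)
  | pi A B => pi (rename f A) (rename (upRen f) B)

/-- Weakening by one variable. -/
def shift (M : Tm S) : Tm S := M.rename Nat.succ

/-- Lifting of a substitution under one binder. -/
def upSub (σ : ℕ → Tm S) : ℕ → Tm S
  | 0 => var 0
  | n + 1 => (σ n).shift

/-- Simultaneous capture-avoiding substitution. -/
def subst (σ : ℕ → Tm S) : Tm S → Tm S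
  | var n => σ n
  | srt s => srt s
  | app M N => app (subst σ M) (subst σ N)
  | lam A M => lam (subst σ A) (subst (upSub σ) M)
  | pi A B => pi (subst σ A) (subst (upSub σ) B)

/-- The substitution that replaces variable `0` by `N`. -/
def single (N : Tm S) : ℕ → Tm S
  | 0 => N
  | n + 1 => var n

/-- `M[x := N]` for the outermost variable `x`. -/
def inst (M N : Tm S) : Tm S := M.subst (single N)

end Tm

open Tm

/-- One-step beta reduction, the compatible closure of `(λ x : A. M) N → M[x := N]`. -/
inductive Red : Tm S → Tm S → Prop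
  | beta (A M N : Tm S) : Red (app (lam A M) N) (M.inst N)
  | appL {M M' : Tm S} (N : Tm S) : Red M M' → Red (app M N) (app M' N)
  | appR (M : Tm S) {N N' : Tm S} : Red N N' → Red (app M N) (app M N')
  | lamL {A A' : Tm S} (M : Tm S) : Red A A' → Red (lam A M) (lam A' M)
  | lamR (A : Tm S) {M M' : Tm S} : Red M M' → Red (lam A M) (lam A M')
  | piL {A A' : Tm S} (B : Tm S) : Red A A' → Red (pi A B) (pi A' B)
  | piR (A : Tm S) {B B' : Tm S} : Red B B' → Red (pi A B) (pi A B')

/-- A specification of a pure type system: axioms and rules on a set of sorts `S`. -/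
structure Spec (S : Type*) where
  /-- the axioms `(s₁, s₂)` -/
  ax : S → S → Prop
  /-- the rules `(s₁, s₂, s₃)` -/
  rl : S → S → S → Prop

/-- The typing relation; a context lists the types of the variables, most recent first. -/
inductive Typed (P : Spec S) : List (Tm S) → Tm S → Tm S → Prop
  | axm {s₁ s₂ : S} : P.ax s₁ s₂ → Typed P [] (srt s₁) (srt s₂)
  | start {Γ : List (Tm S)} {A : Tm S} {s : S} :
      Typed P Γ A (srt s) → Typed P (A :: Γ) (var 0) A.shift
  | weak {Γ : List (Tm S)} {M B A : Tm S} {s : S} :
      Typed P Γ M B → Typed P Γ A (srt s) → Typed P (A :: Γ) M.shift B.shift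
  | prod {Γ : List (Tm S)} {A B : Tm S} {s₁ s₂ s₃ : S} :
      Typed P Γ A (srt s₁) → Typed P (A :: Γ) B (srt s₂) → P.rl s₁ s₂ s₃ →
        Typed P Γ (pi A B) (srt s₃)
  | abst {Γ : List (Tm S)} {A M B : Tm S} {s : S} :
      Typed P (A :: Γ) M B → Typed P Γ (pi A B) (srt s) → Typed P Γ (lam A M) (pi A B)
  | appl {Γ : List (Tm S)} {M N A B : Tm S} :
      Typed P Γ M (pi A B) → Typed P Γ N A → Typed P Γ (app M N) (B.inst N)
  | conv {Γ : List (Tm S)} {M A B : Tm S} {s : S} :
      Typed P Γ M A → Typed P Γ B (srt s) → Relation.EqvGen Red A B → Typed P Γ M B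

/-- An expression is legal if it is the subject or the type of a derivable judgement. -/
def Legal (P : Spec S) (M : Tm S) : Prop := ∃ Γ B, Typed P Γ M B ∨ Typed P Γ B M

/-- Weak normalization: every legal expression reduces to a normal form. -/
def WeaklyNormalizing (P : Spec S) : Prop :=
  ∀ M, Legal P M → ∃ N, Relation.ReflTransGen Red M N ∧ ∀ K, ¬ Red N K

/-- Strong normalization: no legal expression starts an infinite reduction sequence. -/
def StronglyNormalizing (P : Spec S) : Prop :=
  ∀ M, Legal P M → ¬ ∃ f : ℕ → Tm S, f 0 = M ∧ ∀ i, Red (f i) (f (i + 1))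

end Vale.Agent.P340
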