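import Vale.Agent.P340.Defs

namespace Vale.Agent.P340

open Tm

variable {S T : Type*}

/-- Renaming of sorts. -/
def Tm.sortMap (g : S → T) : Tm S → Tm T
  | var n => var n
  | srt s => srt (g s)
  | app M N => app (sortMap g M) (sortMap g N)
  | lam A M => lam (sortMap g A) (sortMap g M)
  | pi A B => pi (sortMap g A) (sortMap g B)

theorem sortMap_rename (g : S → T) (M : Tm S) :
    ∀ f, (M.rename f).sortMap g = (M.sortMap g).rename f := by
  induction M <;> intro f <;> simp_all [Tm.rename, Tm.sortMap]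

theorem sortMap_shift (g : S → T) (M : Tm S) : M.shift.sortMap g = (M.sortMap g).shift :=
  sortMap_rename g M _

theorem sortMap_upSub (g : S → T) (σ : ℕ → Tm S) :
    (fun n => (upSub σ n).sortMap g) = upSub (fun n => (σ n).sortMap g) := by
  funext n
  cases n with
  | zero => rfl
  | succ n => exact sortMap_shift g (σ n)

theorem sortMap_subst (g : S → T) (M : Tm S) :
    ∀ σ, (M.subst σ).sortMap g = (M.sortMap g).subst (fun n => (σ n).sortMap g) := by
  induction M with
  | var n => intro σ; rfl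
  | srt s => intro σ; rfl
  | app M N ihM ihN => intro σ; simp [Tm.subst, Tm.sortMap, ihM, ihN]
  | lam A M ihA ihM => intro σ; simp [Tm.subst, Tm.sortMap, ihA, ihM, sortMap_upSub]
  | pi A B ihA ihB => intro σ; simp [Tm.subst, Tm.sortMap, ihA, ihB, sortMap_upSub]

theorem sortMap_inst (g : S → T) (M N : Tm S) :
    (M.inst N).sortMap g = (M.sortMap g).inst (N.sortMap g) := by
  unfold Tm.inst
  rw [sortMap_subst]
  congr 1
  funext n
  cases n <;> rfl

theorem red_map (g : S → T) {M N : Tm S} (h : Red M N) :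
    Red (M.sortMap g) (N.sortMap g) := by
  induction h with
  | beta A M N => rw [sortMap_inst]; exact Red.beta _ _ _
  | appL N _ ih => exact Red.appL _ ih
  | appR M _ ih => exact Red.appR _ ih
  | lamL M _ ih => exact Red.lamL _ ih
  | lamR A _ ih => exact Red.lamR _ ih
  | piL B _ ih => exact Red.piL _ ih
  | piR A _ ih => exact Red.piR _ ih

theorem eqv_map (g : S → T) {M N : Tm S} (h : Relation.EqvGen Red M N) :
    Relation.EqvGen Red (M.sortMap g) (N.sortMap g) := by
  induction h with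
  | rel _ _ h => exact .rel _ _ (red_map g h)
  | refl _ => exact .refl _
  | symm _ _ _ ih => exact .symm _ _ ih
  | trans _ _ _ _ _ ih ih' => exact .trans _ _ _ ih ih'

theorem red_reflect (g : S → T) (M : Tm S) :
    ∀ K', Red (M.sortMap g) K' → ∃ K, Red M K ∧ K.sortMap g = K' := by
  induction M with
  | var n => intro K' h; cases h
  | srt s => intro K' h; cases h
  | app M N ihM ihN =>
    intro K' h
    simp only [Tm.sortMap] at h
    generalize hM : M.sortMap g = M' at h
    cases h with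
    | beta A B C =>
      cases M with
      | lam A₀ B₀ =>
        simp only [Tm.sortMap, Tm.lam.injEq] at hM
        exact ⟨B₀.inst N, Red.beta _ _ _, by rw [sortMap_inst, hM.2]⟩
      | _ => simp [Tm.sortMap] at hM
    | appL _ h1 =>
      subst hM
      obtain ⟨K, hK, rfl⟩ := ihM _ h1
      exact ⟨app K N, Red.appL _ hK, rfl⟩
    | appR _ h1 =>
      subst hM
      obtain ⟨K, hK, rfl⟩ := ihN _ h1
      exact ⟨app M K, Red.appR _ hK, rfl⟩
  | lam A M ihA ihM =>
    intro K' h
    simp only [Tm.sortMap] at h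
    cases h with
    | lamL _ h1 =>
      obtain ⟨K, hK, rfl⟩ := ihA _ h1
      exact ⟨lam K M, Red.lamL _ hK, rfl⟩
    | lamR _ h1 =>
      obtain ⟨K, hK, rfl⟩ := ihM _ h1
      exact ⟨lam A K, Red.lamR _ hK, rfl⟩
  | pi A B ihA ihB =>
    intro K' h
    simp only [Tm.sortMap] at h
    cases h with
    | piL _ h1 =>
      obtain ⟨K, hK, rfl⟩ := ihA _ h1
      exact ⟨pi K B, Red.piL _ hK, rfl⟩
    | piR _ h1 =>
      obtain ⟨K, hK, rfl⟩ := ihB _ h1
      exact ⟨pi A K, Red.piR _ hK, rfl⟩

theorem reds_reflect (g : S → T) (M : Tm S) {K' : Tm T}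
    (h : Relation.ReflTransGen Red (M.sortMap g) K') :
    ∃ K, Relation.ReflTransGen Red M K ∧ K.sortMap g = K' := by
  induction h with
  | refl => exact ⟨M, .refl, rfl⟩
  | tail _ h ih =>
    obtain ⟨K, hK, rfl⟩ := ih
    obtain ⟨K₂, hK₂, e⟩ := red_reflect g K _ h
    exact ⟨K₂, hK.tail hK₂, e⟩

/-- The pullback of a specification along a map of sorts. -/
def Spec.pullback (g : S → T) (P : Spec T) : Spec S :=
  ⟨fun a b => P.ax (g a) (g b), fun a b c => P.rl (g a) (g b) (g c)⟩

theorem typed_map (g : S → T) {P : Spec T} {Γ : List (Tm S)} {M B : Tm S}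
    (h : Typed (P.pullback g) Γ M B) :
    Typed P (Γ.map (Tm.sortMap g)) (M.sortMap g) (B.sortMap g) := by
  induction h with
  | axm h => exact Typed.axm h
  | start _ ih => rw [sortMap_shift]; exact Typed.start ih
  | weak _ _ ih ih' => rw [sortMap_shift, sortMap_shift]; exact Typed.weak ih ih'
  | prod _ _ h ih ih' => exact Typed.prod ih ih' h
  | abst _ _ ih ih' => exact Typed.abst ih ih'
  | appl _ _ ih ih' => rw [sortMap_inst]; exact Typed.appl ih ih'
  | conv _ _ e ih ih' => exact Typed.conv ih ih' (eqv_map g e)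

theorem wn_pullback (g : S → T) {P : Spec T} (h : WeaklyNormalizing P) :
    WeaklyNormalizing (P.pullback g) := by
  rintro M ⟨Γ, B, hM⟩
  have : Legal P (M.sortMap g) :=
    ⟨_, B.sortMap g, hM.imp (typed_map g) (typed_map g)⟩
  obtain ⟨N, hN, hnf⟩ := h _ this
  obtain ⟨N₀, hN₀, rfl⟩ := reds_reflect g M hN
  exact ⟨N₀, hN₀, fun K hK => hnf _ (red_map g hK)⟩

/-- Each derivation uses only finitely many sorts, at least one. -/
theorem typed_finite {P : Spec T} {Γ : List (Tm T)} {M B : Tm T} (d : Typed P Γ M B) :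
    ∃ F : Finset T, F.Nonempty ∧ ∀ {S : Type} (g : S → T) (h : T → S),
      (∀ t ∈ F, g (h t) = t) →
        Typed (P.pullback g) (Γ.map (Tm.sortMap h)) (M.sortMap h) (B.sortMap h) := by
  classical
  induction d with
  | @axm s₁ s₂ hax =>
    exact ⟨{s₁, s₂}, by simp, fun g h hgh => Typed.axm
      (show P.ax (g (h s₁)) (g (h s₂)) by rwa [hgh s₁ (by simp), hgh s₂ (by simp)])⟩
  | start _ ih =>
    obtain ⟨F, hF, ih⟩ := ih
    refine ⟨F, hF, fun g h hgh => ?_⟩
    rw [sortMap_shift]
    exact Typed.start (ih g h hgh)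
  | weak _ _ ih ih' =>
    obtain ⟨F, hF, ih⟩ := ih
    obtain ⟨F', -, ih'⟩ := ih'
    refine ⟨F ∪ F', hF.mono Finset.subset_union_left, fun g h hgh => ?_⟩
    rw [sortMap_shift, sortMap_shift]
    exact Typed.weak (ih g h fun t ht => hgh t (Finset.mem_union_left _ ht))
      (ih' g h fun t ht => hgh t (Finset.mem_union_right _ ht))
  | @prod Δ A C s₁ s₂ s₃ _ _ hrl ih ih' =>
    obtain ⟨F, hF, ih⟩ := ih
    obtain ⟨F', -, ih'⟩ := ih'
    refine ⟨F ∪ F' ∪ {s₁, s₂, s₃}, hF.mono (fun t ht => by simp [ht]), fun g h hgh => ?_⟩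
    refine Typed.prod (ih g h fun t ht => hgh t (by simp [ht]))
      (ih' g h fun t ht => hgh t (by simp [ht])) ?_
    show P.rl (g (h s₁)) (g (h s₂)) (g (h s₃))
    rwa [hgh s₁ (by simp), hgh s₂ (by simp), hgh s₃ (by simp)]
  | abst _ _ ih ih' =>
    obtain ⟨F, hF, ih⟩ := ih
    obtain ⟨F', -, ih'⟩ := ih'
    exact ⟨F ∪ F', hF.mono Finset.subset_union_left, fun g h hgh => Typed.abst
      (ih g h fun t ht => hgh t (Finset.mem_union_left _ ht))
      (ih' g h fun t ht => hgh t (Finset.mem_union_right _ ht))⟩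
  | appl _ _ ih ih' =>
    obtain ⟨F, hF, ih⟩ := ih
    obtain ⟨F', -, ih'⟩ := ih'
    refine ⟨F ∪ F', hF.mono Finset.subset_union_left, fun g h hgh => ?_⟩
    rw [sortMap_inst]
    exact Typed.appl (ih g h fun t ht => hgh t (Finset.mem_union_left _ ht))
      (ih' g h fun t ht => hgh t (Finset.mem_union_right _ ht))
  | conv _ _ e ih ih' =>
    obtain ⟨F, hF, ih⟩ := ih
    obtain ⟨F', -, ih'⟩ := ih'
    exact ⟨F ∪ F', hF.mono Finset.subset_union_left, fun g h hgh => Typed.conv
      (ih g h fun t ht => hgh t (Finset.mem_union_left _ ht))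
      (ih' g h fun t ht => hgh t (Finset.mem_union_right _ ht)) (eqv_map h e)⟩

/-- If a weakly but not strongly normalizing specification exists, so does one with finitely many
sorts. -/
theorem sn_of_finite
    (hfin : ∀ (n : ℕ) (P : Spec (Fin n)), WeaklyNormalizing P → StronglyNormalizing P)
    (P : Spec T) (hwn : WeaklyNormalizing P) : StronglyNormalizing P := by
  classical
  rintro M ⟨Γ, B, hM⟩ ⟨f, hf0, hf⟩
  have hF : ∃ F : Finset T, F.Nonempty ∧ ∀ {S : Type} (g : S → T) (h : T → S),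
      (∀ t ∈ F, g (h t) = t) → Legal (P.pullback g) (M.sortMap h) := by
    rcases hM with d | d
    · obtain ⟨F, hne, hF⟩ := typed_finite d
      exact ⟨F, hne, fun g h hgh => ⟨_, _, Or.inl (hF g h hgh)⟩⟩
    · obtain ⟨F, hne, hF⟩ := typed_finite d
      exact ⟨F, hne, fun g h hgh => ⟨_, _, Or.inr (hF g h hgh)⟩⟩
  obtain ⟨F, hne, hF⟩ := hF
  let e := F.equivFin
  let g : Fin F.card → T := fun i => (e.symm i).1
  let h : T → Fin F.card := fun t =>
    if ht : t ∈ F then e ⟨t, ht⟩ else e ⟨hne.choose, hne.choose_spec⟩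
  have hgh : ∀ t ∈ F, g (h t) = t := by
    intro t ht
    simp [g, h, ht]
  exact hfin _ (P.pullback g) (wn_pullback g hwn) (M.sortMap h) (hF g h hgh)
    ⟨fun i => (f i).sortMap h, by simp [hf0], fun i => red_map h (hf i)⟩

end Vale.Agent.P340
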